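import Vale.Agent.Lib.P331.helper51.ExpT

/-!
P331: the expectation lemma for the values above the largest non-loop sample (one pair swap):
their mean total is at most the mean of the largest non-loop sample.
-/

namespace Vale.Agent.Lib.P331

open Finset

noncomputable section

open Classical

variable {E : Type} [Fintype E] [DecidableEq E]

/-- The sample of `e` if it is strictly the largest non-loop sample. -/
def helper51_U (M : Matroid E) (e : E) (S : E → ℝ) : ℝ :=
  if (∀ f ∈ NL M, f ≠ e → S f < S e) then S e else 0

theorem helper51_sum_U_le (M : Matroid E) (S : E → ℝ) :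
    ∑ e ∈ NL M, helper51_U M e S ≤ topS M S := by
  by_cases hex : ∃ e0 ∈ NL M, ∀ f ∈ NL M, f ≠ e0 → S f < S e0
  · obtain ⟨e0, he0, hu⟩ := hex
    rw [Finset.sum_eq_single_of_mem e0 he0]
    · unfold helper51_U
      rw [if_pos hu]
      exact helper51_le_topS M S he0
    · intro e he hee0
      unfold helper51_U
      refine if_neg ?_
      intro hu'
      have h1 := hu e he hee0
      have h2 := hu' e0 he0 (fun h => hee0 h.symm)
      exact lt_asymm h1 h2
  · rw [Finset.sum_eq_zero]
    · exact helper51_topS_nonneg M S
    · intro e he
      unfold helper51_U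
      refine if_neg ?_
      intro h
      exact hex ⟨e, he, h⟩

theorem helper51_X_term_le {Ω : Type} [Fintype Ω] (M : Matroid E) (p val : E → Ω → ℝ)
    (hp : ∀ e ω, 0 ≤ p e ω) (hval : ∀ e ω, 0 ≤ val e ω) (e : E) :
    helper51_EE p (fun s v =>
        if topS M (vals val s) < val e (v e) then val e (v e) else 0)
      ≤ helper51_EE p (fun s _ => helper51_U M e (vals val s)) := by
  rw [helper51_EE_swap p _ e]
  refine helper51_EE_mono p hp fun s v => ?_
  show (if topS M (vals val (Function.update s e (v e)))
        < val e (Function.update v e (s e) e)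
      then val e (Function.update v e (s e) e) else 0) ≤ _
  rw [helper51_vals_update, Function.update_self]
  by_cases hc : topS M (Function.update (vals val s) e (val e (v e))) < val e (s e)
  · rw [if_pos hc]
    have hu : ∀ f ∈ NL M, f ≠ e → vals val s f < vals val s e := by
      intro f hf hfe
      have h := helper51_le_topS M (Function.update (vals val s) e (val e (v e))) hf
      rw [Function.update_of_ne hfe] at h
      exact lt_of_le_of_lt h hc
    unfold helper51_U
    rw [if_pos hu]
    exact le_refl _
  · rw [if_neg hc]
    unfold helper51_U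
    split_ifs
    · exact hval e (s e)
    · exact le_refl 0

theorem helper51_exp_X_le (M : Matroid E) {Ω : Type} [Fintype Ω] (p val : E → Ω → ℝ)
    (hp : ∀ e ω, 0 ≤ p e ω) (hval : ∀ e ω, 0 ≤ val e ω) :
    ∑ s : E → Ω, ∑ v : E → Ω, wt p s * wt p v *
        (∑ e ∈ NL M, if topS M (vals val s) < val e (v e) then val e (v e) else 0)
      ≤ ∑ s : E → Ω, ∑ v : E → Ω, wt p s * wt p v * topS M (vals val s) := by
  show helper51_EE p (fun s v =>
        ∑ e ∈ NL M, if topS M (vals val s) < val e (v e) then val e (v e) else 0)
      ≤ helper51_EE p (fun s _ => topS M (vals val s))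
  calc helper51_EE p (fun s v =>
        ∑ e ∈ NL M, if topS M (vals val s) < val e (v e) then val e (v e) else 0)
      = ∑ e ∈ NL M, helper51_EE p (fun s v =>
          if topS M (vals val s) < val e (v e) then val e (v e) else 0) :=
        helper51_EE_sum p _ _
    _ ≤ ∑ e ∈ NL M, helper51_EE p (fun s _ => helper51_U M e (vals val s)) :=
        Finset.sum_le_sum fun e _ => helper51_X_term_le M p val hp hval e
    _ = helper51_EE p (fun s _ => ∑ e ∈ NL M, helper51_U M e (vals val s)) :=
        (helper51_EE_sum p _ _).symm
    _ ≤ helper51_EE p (fun s _ => topS M (vals val s)) :=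
        helper51_EE_mono p hp fun s _ => helper51_sum_U_le M (vals val s)

end

end Vale.Agent.Lib.P331
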