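import Vale.Agent.Lib.P331.Events

/-!
P331: weighted double sums over sample atoms and value atoms, their invariance under the swap
of one pair, and basic facts on the largest non-loop sample.
-/

namespace Vale.Agent.Lib.P331

open Finset

noncomputable section

open Classical

variable {E : Type} [Fintype E] [DecidableEq E]

/-! ### The largest non-loop sample -/

theorem helper51_topS_nonneg (M : Matroid E) (S : E → ℝ) : 0 ≤ topS M S := by
  unfold topS
  exact NNReal.coe_nonneg _

theorem helper51_le_topS (M : Matroid E) (S : E → ℝ) {e : E} (he : e ∈ NL M) :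
    S e ≤ topS M S := by
  unfold topS
  refine le_trans (Real.le_coe_toNNReal (S e)) ?_
  exact NNReal.coe_le_coe.mpr (Finset.le_sup (f := fun e => (S e).toNNReal) he)

theorem helper51_topS_le (M : Matroid E) (S : E → ℝ) {c : ℝ} (hc : 0 ≤ c)
    (h : ∀ e ∈ NL M, S e ≤ c) : topS M S ≤ c := by
  unfold topS
  have h1 : ((univ.filter fun e => M.Indep {e}).sup fun e => (S e).toNNReal) ≤ c.toNNReal := by
    refine Finset.sup_le ?_
    intro e he
    exact Real.toNNReal_le_toNNReal (h e he)
  have h2 := NNReal.coe_le_coe.mpr h1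
  rw [Real.coe_toNNReal c hc] at h2
  exact h2

/-! ### Weighted double sums -/

/-- The weighted double sum over sample atoms and value atoms. -/
def helper51_EE {Ω : Type} [Fintype Ω] (p : E → Ω → ℝ) (F : (E → Ω) → (E → Ω) → ℝ) : ℝ :=
  ∑ s : E → Ω, ∑ v : E → Ω, wt p s * wt p v * F s v

theorem helper51_wt_nonneg {Ω : Type} (p : E → Ω → ℝ) (hp : ∀ e ω, 0 ≤ p e ω) (s : E → Ω) :
    0 ≤ wt p s := by
  unfold wt
  exact Finset.prod_nonneg fun e _ => hp e (s e)

theorem helper51_EE_mono {Ω : Type} [Fintype Ω] (p : E → Ω → ℝ) (hp : ∀ e ω, 0 ≤ p e ω)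
    {F G : (E → Ω) → (E → Ω) → ℝ} (h : ∀ s v, F s v ≤ G s v) :
    helper51_EE p F ≤ helper51_EE p G := by
  unfold helper51_EE
  refine Finset.sum_le_sum fun s _ => Finset.sum_le_sum fun v _ => ?_
  exact mul_le_mul_of_nonneg_left (h s v)
    (mul_nonneg (helper51_wt_nonneg p hp s) (helper51_wt_nonneg p hp v))

theorem helper51_EE_add {Ω : Type} [Fintype Ω] (p : E → Ω → ℝ)
    (F G : (E → Ω) → (E → Ω) → ℝ) :
    helper51_EE p (fun s v => F s v + G s v) = helper51_EE p F + helper51_EE p G := by
  unfold helper51_EE
  rw [← Finset.sum_add_distrib]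
  refine Finset.sum_congr rfl fun s _ => ?_
  rw [← Finset.sum_add_distrib]
  refine Finset.sum_congr rfl fun v _ => ?_
  ring

theorem helper51_EE_sum {Ω : Type} [Fintype Ω] (p : E → Ω → ℝ) (A : Finset E)
    (F : E → (E → Ω) → (E → Ω) → ℝ) :
    helper51_EE p (fun s v => ∑ i ∈ A, F i s v) = ∑ i ∈ A, helper51_EE p (F i) := by
  unfold helper51_EE
  have h1 : ∀ s : E → Ω, ∑ v : E → Ω, wt p s * wt p v * ∑ i ∈ A, F i s v
      = ∑ i ∈ A, ∑ v : E → Ω, wt p s * wt p v * F i s v := by
    intro s
    rw [Finset.sum_comm]
    refine Finset.sum_congr rfl fun v _ => ?_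
    rw [Finset.mul_sum]
  rw [Finset.sum_congr rfl fun s _ => h1 s]
  exact Finset.sum_comm

theorem helper51_wt_update {Ω : Type} (p : E → Ω → ℝ) (s : E → Ω) (e : E) (a : Ω) :
    wt p (Function.update s e a) = p e a * ∏ f ∈ univ.erase e, p f (s f) := by
  unfold wt
  rw [← Finset.mul_prod_erase univ (fun f => p f (Function.update s e a f)) (mem_univ e)]
  congr 1
  · simp
  · refine Finset.prod_congr rfl fun f hf => ?_
    rw [Function.update_of_ne (Finset.ne_of_mem_erase hf)]

theorem helper51_wt_split {Ω : Type} (p : E → Ω → ℝ) (s : E → Ω) (e : E) :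
    wt p s = p e (s e) * ∏ f ∈ univ.erase e, p f (s f) := by
  unfold wt
  rw [← Finset.mul_prod_erase univ (fun f => p f (s f)) (mem_univ e)]

theorem helper51_wt_swap {Ω : Type} (p : E → Ω → ℝ) (s v : E → Ω) (e : E) :
    wt p (Function.update s e (v e)) * wt p (Function.update v e (s e)) = wt p s * wt p v := by
  rw [helper51_wt_update, helper51_wt_update, helper51_wt_split p s e, helper51_wt_split p v e]
  ring

/-- The swap of the pair with index `e`, as a permutation of the pairs of atom vectors. -/
def helper51_swapEquiv {Ω : Type} (e : E) : ((E → Ω) × (E → Ω)) ≃ ((E → Ω) × (E → Ω)) where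
  toFun x := (Function.update x.1 e (x.2 e), Function.update x.2 e (x.1 e))
  invFun x := (Function.update x.1 e (x.2 e), Function.update x.2 e (x.1 e))
  left_inv x := by
    ext f
    · by_cases h : f = e
      · subst h; simp
      · simp [Function.update_of_ne h]
    · by_cases h : f = e
      · subst h; simp
      · simp [Function.update_of_ne h]
  right_inv x := by
    ext f
    · by_cases h : f = e
      · subst h; simp
      · simp [Function.update_of_ne h]
    · by_cases h : f = e
      · subst h; simp
      · simp [Function.update_of_ne h]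

theorem helper51_EE_swap {Ω : Type} [Fintype Ω] (p : E → Ω → ℝ)
    (F : (E → Ω) → (E → Ω) → ℝ) (e : E) :
    helper51_EE p F
      = helper51_EE p (fun s v => F (Function.update s e (v e)) (Function.update v e (s e))) := by
  unfold helper51_EE
  rw [← Fintype.sum_prod_type' (fun s v => wt p s * wt p v * F s v),
    ← Fintype.sum_prod_type' (fun s v => wt p s * wt p v *
      F (Function.update s e (v e)) (Function.update v e (s e)))]
  rw [← Equiv.sum_comp (helper51_swapEquiv e)
    (fun x : (E → Ω) × (E → Ω) => wt p x.1 * wt p x.2 * F x.1 x.2)]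
  refine Finset.sum_congr rfl fun x _ => ?_
  show wt p (Function.update x.1 e (x.2 e)) * wt p (Function.update x.2 e (x.1 e)) * _ = _
  rw [helper51_wt_swap]
  rfl

theorem helper51_EE_congr {Ω : Type} [Fintype Ω] (p : E → Ω → ℝ)
    {F G : (E → Ω) → (E → Ω) → ℝ} (h : ∀ s v, F s v = G s v) :
    helper51_EE p F = helper51_EE p G := by
  have : F = G := funext fun s => funext fun v => h s v
  rw [this]

theorem helper51_vals_update {Ω : Type} (val : E → Ω → ℝ) (s : E → Ω) (e : E) (a : Ω) :
    vals val (Function.update s e a) = Function.update (vals val s) e (val e a) := by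
  funext f
  unfold vals
  by_cases h : f = e
  · subst h; simp
  · simp [Function.update_of_ne h]

end

end Vale.Agent.Lib.P331
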