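import Vale.Agent.Lib.P331.helper51.EE

/-!
P331: the expectation lemma `exp_T_le` (two pair swaps): the mean of the largest non-loop
sample is at most three times the mean gain of the weak mode plus twice the mean gain of the
strict mode.
-/

namespace Vale.Agent.Lib.P331

open Finset

noncomputable section

open Classical

variable {E : Type} [Fintype E] [DecidableEq E]

/-! ### Pointwise events -/

/-- The value of `e` strictly beats its own sample and every other non-loop value, and is at
least every other non-loop sample. -/
def helper51_Q (M : Matroid E) (e : E) (S V : E → ℝ) : Prop :=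
  (∀ f ∈ NL M, f ≠ e → S f ≤ V e) ∧ S e < V e ∧ (∀ f ∈ NL M, f ≠ e → V f < V e)

/-- Every non-loop value other than that of `e` is at most the largest non-loop sample. -/
def helper51_Good (M : Matroid E) (e : E) (S V : E → ℝ) : Prop :=
  ∀ g ∈ NL M, g ≠ e → V g ≤ topS M S

/-- `Q e` holds and `g` carries the largest non-loop value other than that of `e`, which is
above the largest non-loop sample. -/
def helper51_Bad (M : Matroid E) (e g : E) (S V : E → ℝ) : Prop :=
  helper51_Q M e S V ∧ topS M S < V g ∧ ∀ h ∈ NL M, h ≠ e → V h ≤ V g

/-- The sample of `g` is strictly the largest non-loop sample. -/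
def helper51_Ustr (M : Matroid E) (g : E) (S : E → ℝ) : Prop :=
  ∀ f ∈ NL M, f ≠ g → S f < S g

/-- The sample of `e` if it is a largest non-loop sample and beats every non-loop value. -/
def helper51_h (M : Matroid E) (e : E) (S V : E → ℝ) : ℝ :=
  if (∀ f ∈ NL M, f ≠ e → S f ≤ S e) ∧ (∀ f ∈ NL M, V f < S e) then S e else 0

theorem helper51_step1 (M : Matroid E) (S V : E → ℝ) (hS : ∀ e, 0 ≤ S e) :
    topS M S ≤ E0 M S V + ∑ e ∈ NL M, helper51_h M e S V := by
  have hnn : ∀ e ∈ NL M, 0 ≤ helper51_h M e S V := by
    intro e _
    unfold helper51_h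
    split_ifs
    · exact hS e
    · exact le_refl 0
  have hsum : 0 ≤ ∑ e ∈ NL M, helper51_h M e S V := Finset.sum_nonneg hnn
  by_cases hex : ∃ e ∈ NL M, topS M S ≤ V e
  · have h0 : E0 M S V = topS M S := by
      unfold E0
      exact if_pos hex
    rw [h0]
    linarith
  · have hE0 : E0 M S V = 0 := by
      unfold E0
      exact if_neg hex
    rw [hE0, zero_add]
    by_cases hne : (NL M).Nonempty
    · obtain ⟨e, he, hmax⟩ := Finset.exists_max_image (NL M) S hne
      have hT : topS M S = S e :=
        le_antisymm (helper51_topS_le M S (hS e) hmax) (helper51_le_topS M S he)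
      have hv : helper51_h M e S V = S e := by
        unfold helper51_h
        refine if_pos ⟨fun f hf _ => hmax f hf, fun f hf => ?_⟩
        rw [← hT]
        by_contra hcon
        exact hex ⟨f, hf, not_lt.mp hcon⟩
      calc topS M S = helper51_h M e S V := by rw [hv, hT]
        _ ≤ ∑ e ∈ NL M, helper51_h M e S V := Finset.single_le_sum hnn he
    · have hT : topS M S ≤ 0 := by
        refine helper51_topS_le M S (le_refl 0) ?_
        intro e he
        exact absurd ⟨e, he⟩ hne
      linarith

theorem helper51_step2 (M : Matroid E) (e : E) (he : e ∈ NL M) (S V : E → ℝ) :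
    helper51_h M e (Function.update S e (V e)) (Function.update V e (S e))
      = if helper51_Q M e S V then V e else 0 := by
  unfold helper51_h
  rw [Function.update_self]
  refine if_congr ?_ rfl rfl
  unfold helper51_Q
  constructor
  · rintro ⟨h1, h2⟩
    refine ⟨fun f hf hfe => ?_, ?_, fun f hf hfe => ?_⟩
    · have h := h1 f hf hfe
      rwa [Function.update_of_ne hfe] at h
    · have h := h2 e he
      rwa [Function.update_self] at h
    · have h := h2 f hf
      rwa [Function.update_of_ne hfe] at h
  · rintro ⟨h1, h2, h3⟩
    refine ⟨fun f hf hfe => ?_, fun f hf => ?_⟩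
    · rw [Function.update_of_ne hfe]
      exact h1 f hf hfe
    · by_cases hfe : f = e
      · rw [hfe, Function.update_self]
        exact h2
      · rw [Function.update_of_ne hfe]
        exact h3 f hf hfe

theorem helper51_step3 (M : Matroid E) (e : E) (S V : E → ℝ) (hV : ∀ e, 0 ≤ V e) :
    (if helper51_Q M e S V ∧ ¬ helper51_Good M e S V then V e else 0)
      ≤ ∑ g ∈ (NL M).erase e, (if helper51_Bad M e g S V then V e else 0) := by
  have hnn : ∀ g ∈ (NL M).erase e, 0 ≤ (if helper51_Bad M e g S V then V e else 0) := by
    intro g _
    split_ifs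
    · exact hV e
    · exact le_refl 0
  by_cases hc : helper51_Q M e S V ∧ ¬ helper51_Good M e S V
  · rw [if_pos hc]
    obtain ⟨hq, hng⟩ := hc
    have hng' : ∃ g0 ∈ NL M, g0 ≠ e ∧ topS M S < V g0 := by
      by_contra hcon
      apply hng
      intro g hg hge
      by_contra hlt
      exact hcon ⟨g, hg, hge, not_le.mp hlt⟩
    obtain ⟨g0, hg0, hg0e, hg0T⟩ := hng'
    have hg0m : g0 ∈ (NL M).erase e := Finset.mem_erase.mpr ⟨hg0e, hg0⟩
    obtain ⟨g, hg, hmax⟩ := Finset.exists_max_image ((NL M).erase e) V ⟨g0, hg0m⟩
    have hbad : helper51_Bad M e g S V := by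
      refine ⟨hq, ?_, fun h hh hhe => hmax h (Finset.mem_erase.mpr ⟨hhe, hh⟩)⟩
      exact lt_of_lt_of_le hg0T (hmax g0 hg0m)
    calc V e = (if helper51_Bad M e g S V then V e else 0) := (if_pos hbad).symm
      _ ≤ _ := Finset.single_le_sum hnn hg
  · rw [if_neg hc]
    exact Finset.sum_nonneg hnn

theorem helper51_step4 (M : Matroid E) (e g : E) (hg : g ∈ NL M) (hge : g ≠ e) (S V : E → ℝ)
    (hS : ∀ e, 0 ≤ S e)
    (hbad : helper51_Bad M e g (Function.update S g (V g)) (Function.update V g (S g))) :
    helper51_Q M e S V ∧ helper51_Good M e S V ∧ helper51_Ustr M g S := by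
  obtain ⟨⟨q1, q2, q3⟩, hT', hmax⟩ := hbad
  have heg : e ≠ g := fun h => hge h.symm
  simp only [Function.update_self, Function.update_of_ne heg] at q1 q2 q3 hT' hmax
  have hVg : V g < S g := by
    have h := helper51_le_topS M (Function.update S g (V g)) hg
    rw [Function.update_self] at h
    exact lt_of_le_of_lt h hT'
  have hU : ∀ f ∈ NL M, f ≠ g → S f < S g := by
    intro f hf hfg
    have h := helper51_le_topS M (Function.update S g (V g)) hf
    rw [Function.update_of_ne hfg] at h
    exact lt_of_le_of_lt h hT'
  have hT : topS M S = S g := by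
    refine le_antisymm (helper51_topS_le M S (hS g) ?_) (helper51_le_topS M S hg)
    intro f hf
    by_cases hfg : f = g
    · rw [hfg]
    · exact (hU f hf hfg).le
  have hSg : S g < V e := by
    have h := q3 g hg hge
    rwa [Function.update_self] at h
  refine ⟨⟨fun f hf hfe => ?_, q2, fun f hf hfe => ?_⟩, fun h hh hhe => ?_, hU⟩
  · by_cases hfg : f = g
    · rw [hfg]
      exact hSg.le
    · have h := q1 f hf hfe
      rwa [Function.update_of_ne hfg] at h
  · by_cases hfg : f = g
    · rw [hfg]
      exact lt_trans hVg hSg
    · have h := q3 f hf hfe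
      rwa [Function.update_of_ne hfg] at h
  · rw [hT]
    by_cases hhg : h = g
    · rw [hhg]
      exact hVg.le
    · have h' := hmax h hh hhe
      rwa [Function.update_of_ne hhg] at h'

theorem helper51_step5 (M : Matroid E) (e : E) (S V : E → ℝ) (hV : ∀ e, 0 ≤ V e) :
    ∑ g ∈ (NL M).erase e,
        (if helper51_Q M e S V ∧ helper51_Good M e S V ∧ helper51_Ustr M g S then V e else 0)
      ≤ (if helper51_Q M e S V ∧ helper51_Good M e S V then V e else 0) := by
  by_cases hex : ∃ g0 ∈ (NL M).erase e,
      helper51_Q M e S V ∧ helper51_Good M e S V ∧ helper51_Ustr M g0 S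
  · obtain ⟨g0, hg0, hq, hgd, hu⟩ := hex
    rw [if_pos ⟨hq, hgd⟩, Finset.sum_eq_single_of_mem g0 hg0]
    · rw [if_pos ⟨hq, hgd, hu⟩]
    · intro g hg hgg0
      refine if_neg ?_
      rintro ⟨_, _, hu'⟩
      have h1 := hu g (Finset.mem_of_mem_erase hg) hgg0
      have h2 := hu' g0 (Finset.mem_of_mem_erase hg0) (fun h => hgg0 h.symm)
      exact lt_asymm h1 h2
  · rw [Finset.sum_eq_zero]
    · split_ifs
      · exact hV e
      · exact le_refl 0
    · intro g hg
      refine if_neg ?_
      intro h
      exact hex ⟨g, hg, h⟩

theorem helper51_step6 (M : Matroid E) (S V : E → ℝ) (hV : ∀ e, 0 ≤ V e) :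
    ∑ e ∈ NL M, (if helper51_Q M e S V ∧ helper51_Good M e S V then V e else 0)
      ≤ E0 M S V + EA M S V := by
  have hE0 : 0 ≤ E0 M S V := by
    unfold E0
    split_ifs
    · exact helper51_topS_nonneg M S
    · exact le_refl 0
  have hEAterm : ∀ e ∈ NL M, 0 ≤
      (if topS M S < V e ∧ ∀ e' ∈ NL M, e' ≠ e → V e' ≤ topS M S then V e else 0) := by
    intro e _
    split_ifs
    · exact hV e
    · exact le_refl 0
  have hEA : 0 ≤ EA M S V := by
    unfold EA
    exact Finset.sum_nonneg hEAterm
  by_cases hex : ∃ e0 ∈ NL M, helper51_Q M e0 S V ∧ helper51_Good M e0 S V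
  · obtain ⟨e0, he0, hq, hgd⟩ := hex
    rw [Finset.sum_eq_single_of_mem e0 he0]
    · rw [if_pos ⟨hq, hgd⟩]
      have hTle : topS M S ≤ V e0 := by
        refine helper51_topS_le M S (hV e0) ?_
        intro f hf
        by_cases hfe : f = e0
        · rw [hfe]
          exact hq.2.1.le
        · exact hq.1 f hf hfe
      rcases eq_or_lt_of_le hTle with hTeq | hTlt
      · have h0 : E0 M S V = topS M S := by
          unfold E0
          exact if_pos ⟨e0, he0, hTle⟩
        linarith
      · have h1 : V e0 ≤ EA M S V := by
          unfold EA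
          calc V e0 = (if topS M S < V e0 ∧ ∀ e' ∈ NL M, e' ≠ e0 → V e' ≤ topS M S
                then V e0 else 0) := (if_pos ⟨hTlt, hgd⟩).symm
            _ ≤ _ := Finset.single_le_sum hEAterm he0
        linarith
    · intro e he hee0
      refine if_neg ?_
      rintro ⟨⟨_, _, q3'⟩, _⟩
      have h1 := q3' e0 he0 (fun h => hee0 h.symm)
      have h2 := hq.2.2 e he hee0
      exact lt_asymm h1 h2
  · rw [Finset.sum_eq_zero]
    · linarith
    · intro e he
      refine if_neg ?_
      intro h
      exact hex ⟨e, he, h⟩

/-! ### The expectation lemma -/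

theorem helper51_swap_h {Ω : Type} [Fintype Ω] (M : Matroid E) (p val : E → Ω → ℝ)
    (e : E) (he : e ∈ NL M) :
    helper51_EE p (fun s v => helper51_h M e (vals val s) (vals val v))
      = helper51_EE p (fun s v =>
          if helper51_Q M e (vals val s) (vals val v) then vals val v e else 0) := by
  rw [helper51_EE_swap p _ e]
  refine helper51_EE_congr p fun s v => ?_
  show helper51_h M e (vals val (Function.update s e (v e)))
      (vals val (Function.update v e (s e))) = _
  rw [helper51_vals_update, helper51_vals_update]
  exact helper51_step2 M e he (vals val s) (vals val v)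

theorem helper51_bad_le {Ω : Type} [Fintype Ω] (M : Matroid E) (p val : E → Ω → ℝ)
    (hp : ∀ e ω, 0 ≤ p e ω) (hval : ∀ e ω, 0 ≤ val e ω) (e g : E) (hg : g ∈ NL M)
    (hge : g ≠ e) :
    helper51_EE p (fun s v =>
        if helper51_Bad M e g (vals val s) (vals val v) then vals val v e else 0)
      ≤ helper51_EE p (fun s v =>
          if helper51_Q M e (vals val s) (vals val v) ∧
              helper51_Good M e (vals val s) (vals val v) ∧ helper51_Ustr M g (vals val s)
          then vals val v e else 0) := by
  rw [helper51_EE_swap p _ g]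
  refine helper51_EE_mono p hp fun s v => ?_
  show (if helper51_Bad M e g (vals val (Function.update s g (v g)))
        (vals val (Function.update v g (s g)))
      then vals val (Function.update v g (s g)) e else 0) ≤ _
  rw [helper51_vals_update, helper51_vals_update]
  have heg : e ≠ g := fun h => hge h.symm
  by_cases hb : helper51_Bad M e g (Function.update (vals val s) g (val g (v g)))
      (Function.update (vals val v) g (val g (s g)))
  · have h4 := helper51_step4 M e g hg hge (vals val s) (vals val v)
      (fun f => hval f (s f)) hb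
    rw [if_pos hb, if_pos h4, Function.update_of_ne heg]
  · rw [if_neg hb]
    split_ifs
    · exact hval e (v e)
    · exact le_refl 0

theorem helper51_notgood_le {Ω : Type} [Fintype Ω] (M : Matroid E) (p val : E → Ω → ℝ)
    (hp : ∀ e ω, 0 ≤ p e ω) (hval : ∀ e ω, 0 ≤ val e ω) (e : E) :
    helper51_EE p (fun s v =>
        if helper51_Q M e (vals val s) (vals val v) ∧
            ¬ helper51_Good M e (vals val s) (vals val v) then vals val v e else 0)
      ≤ helper51_EE p (fun s v =>
          if helper51_Q M e (vals val s) (vals val v) ∧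
              helper51_Good M e (vals val s) (vals val v) then vals val v e else 0) := by
  have hV : ∀ (v : E → Ω) (f : E), 0 ≤ vals val v f := fun v f => hval f (v f)
  calc helper51_EE p (fun s v =>
        if helper51_Q M e (vals val s) (vals val v) ∧
            ¬ helper51_Good M e (vals val s) (vals val v) then vals val v e else 0)
      ≤ helper51_EE p (fun s v => ∑ g ∈ (NL M).erase e,
          (if helper51_Bad M e g (vals val s) (vals val v) then vals val v e else 0)) :=
        helper51_EE_mono p hp fun s v => helper51_step3 M e (vals val s) (vals val v) (hV v)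
    _ = ∑ g ∈ (NL M).erase e, helper51_EE p (fun s v =>
          if helper51_Bad M e g (vals val s) (vals val v) then vals val v e else 0) :=
        helper51_EE_sum p _ _
    _ ≤ ∑ g ∈ (NL M).erase e, helper51_EE p (fun s v =>
          if helper51_Q M e (vals val s) (vals val v) ∧
              helper51_Good M e (vals val s) (vals val v) ∧ helper51_Ustr M g (vals val s)
          then vals val v e else 0) :=
        Finset.sum_le_sum fun g hg =>
          helper51_bad_le M p val hp hval e g (Finset.mem_of_mem_erase hg)
            (Finset.ne_of_mem_erase hg)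
    _ = helper51_EE p (fun s v => ∑ g ∈ (NL M).erase e,
          (if helper51_Q M e (vals val s) (vals val v) ∧
              helper51_Good M e (vals val s) (vals val v) ∧ helper51_Ustr M g (vals val s)
          then vals val v e else 0)) :=
        (helper51_EE_sum p _ _).symm
    _ ≤ helper51_EE p (fun s v =>
          if helper51_Q M e (vals val s) (vals val v) ∧
              helper51_Good M e (vals val s) (vals val v) then vals val v e else 0) :=
        helper51_EE_mono p hp fun s v => helper51_step5 M e (vals val s) (vals val v) (hV v)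

theorem helper51_Q_le {Ω : Type} [Fintype Ω] (M : Matroid E) (p val : E → Ω → ℝ)
    (hp : ∀ e ω, 0 ≤ p e ω) (hval : ∀ e ω, 0 ≤ val e ω) (e : E) :
    helper51_EE p (fun s v =>
        if helper51_Q M e (vals val s) (vals val v) then vals val v e else 0)
      ≤ 2 * helper51_EE p (fun s v =>
          if helper51_Q M e (vals val s) (vals val v) ∧
              helper51_Good M e (vals val s) (vals val v) then vals val v e else 0) := by
  have hsplit : helper51_EE p (fun s v =>
        if helper51_Q M e (vals val s) (vals val v) then vals val v e else 0)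
      = helper51_EE p (fun s v =>
          if helper51_Q M e (vals val s) (vals val v) ∧
              helper51_Good M e (vals val s) (vals val v) then vals val v e else 0)
        + helper51_EE p (fun s v =>
          if helper51_Q M e (vals val s) (vals val v) ∧
              ¬ helper51_Good M e (vals val s) (vals val v) then vals val v e else 0) := by
    rw [← helper51_EE_add]
    refine helper51_EE_congr p fun s v => ?_
    by_cases hq : helper51_Q M e (vals val s) (vals val v)
    · by_cases hgd : helper51_Good M e (vals val s) (vals val v)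
      · simp [hq, hgd]
      · simp [hq, hgd]
    · simp [hq]
  have h2 := helper51_notgood_le M p val hp hval e
  linarith

theorem exp_T_le (M : Matroid E) {Ω : Type} [Fintype Ω] (p val : E → Ω → ℝ)
    (hp : ∀ e ω, 0 ≤ p e ω) (hval : ∀ e ω, 0 ≤ val e ω) :
    ∑ s : E → Ω, ∑ v : E → Ω, wt p s * wt p v * topS M (vals val s)
      ≤ 3 * ∑ s : E → Ω, ∑ v : E → Ω, wt p s * wt p v * E0 M (vals val s) (vals val v)
        + 2 * ∑ s : E → Ω, ∑ v : E → Ω, wt p s * wt p v * EA M (vals val s) (vals val v) := by
  have hV : ∀ (v : E → Ω) (f : E), 0 ≤ vals val v f := fun v f => hval f (v f)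
  show helper51_EE p (fun s _ => topS M (vals val s))
      ≤ 3 * helper51_EE p (fun s v => E0 M (vals val s) (vals val v))
        + 2 * helper51_EE p (fun s v => EA M (vals val s) (vals val v))
  have hA1 : helper51_EE p (fun s _ => topS M (vals val s))
      ≤ helper51_EE p (fun s v => E0 M (vals val s) (vals val v))
        + ∑ e ∈ NL M, helper51_EE p (fun s v => helper51_h M e (vals val s) (vals val v)) := by
    rw [← helper51_EE_sum, ← helper51_EE_add]
    exact helper51_EE_mono p hp fun s v => helper51_step1 M (vals val s) (vals val v) (hV s)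
  have hA2 : ∑ e ∈ NL M, helper51_EE p (fun s v => helper51_h M e (vals val s) (vals val v))
      ≤ ∑ e ∈ NL M, 2 * helper51_EE p (fun s v =>
          if helper51_Q M e (vals val s) (vals val v) ∧
              helper51_Good M e (vals val s) (vals val v) then vals val v e else 0) := by
    refine Finset.sum_le_sum fun e he => ?_
    rw [helper51_swap_h M p val e he]
    exact helper51_Q_le M p val hp hval e
  have hA3 : ∑ e ∈ NL M, helper51_EE p (fun s v =>
          if helper51_Q M e (vals val s) (vals val v) ∧
              helper51_Good M e (vals val s) (vals val v) then vals val v e else 0)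
      ≤ helper51_EE p (fun s v => E0 M (vals val s) (vals val v))
        + helper51_EE p (fun s v => EA M (vals val s) (vals val v)) := by
    rw [← helper51_EE_sum, ← helper51_EE_add]
    exact helper51_EE_mono p hp fun s v => helper51_step6 M (vals val s) (vals val v) (hV v)
  rw [← Finset.mul_sum] at hA2
  linarith

end

end Vale.Agent.Lib.P331
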