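import Vale.Agent.Lib.P331.Events

/-!
P331: pointwise facts about the threshold rule `thrRule`, valid for every arrival order:
the accepted set is independent; in the strict mode a unique non-loop value above the threshold
is accepted; in a weak mode the accepted set is at least as large as the part above the
threshold of any independent set.
-/

namespace Vale.Agent.Lib.P331

open Finset

noncomputable section

open Classical

variable {E : Type} [Fintype E] [DecidableEq E]

theorem helper51_thrStep_pos (M : Matroid E) (m : ThrMem E) (e : E) (x : ℝ)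
    (hc : (if m.strict then m.thr < x else m.thr ≤ x) ∧ M.Indep (insert e (m.acc : Set E))) :
    thrStep M m e x = (true, ⟨m.strict, m.thr, insert e m.acc⟩) := by
  unfold thrStep
  exact if_pos hc

theorem helper51_thrStep_neg (M : Matroid E) (m : ThrMem E) (e : E) (x : ℝ)
    (hc : ¬ ((if m.strict then m.thr < x else m.thr ≤ x) ∧
      M.Indep (insert e (m.acc : Set E)))) :
    thrStep M m e x = (false, m) := by
  unfold thrStep
  exact if_neg hc

/-- The set accepted by the threshold rule started in memory `m` on the arrival list `l`. -/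
def helper51_tgo (M : Matroid E) (V : E → ℝ) : List E → ThrMem E → Finset E
  | [], _ => ∅
  | e :: l, m =>
    if (thrStep M m e (V e)).1 then insert e (helper51_tgo M V l (thrStep M m e (V e)).2)
    else helper51_tgo M V l (thrStep M m e (V e)).2

theorem helper51_go_eq (M : Matroid E) (J : ℕ) (V : E → ℝ) (l : List E) (m : ThrMem E) :
    (thrRule M J).go V l m = helper51_tgo M V l m := by
  induction l generalizing m with
  | nil => rfl
  | cons x l ih =>
    show (if (thrStep M m x (V x)).1
        then insert x ((thrRule M J).go V l (thrStep M m x (V x)).2)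
        else (thrRule M J).go V l (thrStep M m x (V x)).2) = _
    rw [ih]
    rfl

theorem helper51_run_eq (M : Matroid E) (J : ℕ) (S V : E → ℝ) (r : Fin (J + 10))
    (l : List E) :
    (thrRule M J).run S r V l
      = helper51_tgo M V l ⟨decide (r.val < 4), topS M S / 2 ^ thrExp r.val, ∅⟩ :=
  helper51_go_eq M J V l _

theorem helper51_tgo_cons_pos (M : Matroid E) (V : E → ℝ) (x : E) (l : List E) (m : ThrMem E)
    (hc : (if m.strict then m.thr < V x else m.thr ≤ V x) ∧
      M.Indep (insert x (m.acc : Set E))) :
    helper51_tgo M V (x :: l) m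
      = insert x (helper51_tgo M V l ⟨m.strict, m.thr, insert x m.acc⟩) := by
  show (if (thrStep M m x (V x)).1 then insert x (helper51_tgo M V l (thrStep M m x (V x)).2)
      else helper51_tgo M V l (thrStep M m x (V x)).2) = _
  rw [helper51_thrStep_pos M m x (V x) hc]
  simp

theorem helper51_tgo_cons_neg (M : Matroid E) (V : E → ℝ) (x : E) (l : List E) (m : ThrMem E)
    (hc : ¬ ((if m.strict then m.thr < V x else m.thr ≤ V x) ∧
      M.Indep (insert x (m.acc : Set E)))) :
    helper51_tgo M V (x :: l) m = helper51_tgo M V l m := by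
  show (if (thrStep M m x (V x)).1 then insert x (helper51_tgo M V l (thrStep M m x (V x)).2)
      else helper51_tgo M V l (thrStep M m x (V x)).2) = _
  rw [helper51_thrStep_neg M m x (V x) hc]
  simp

theorem helper51_union_insert (A B : Finset E) (x : E) :
    A ∪ insert x B = insert x A ∪ B := by
  rw [Finset.union_insert, Finset.insert_union]

theorem helper51_tgo_indep (M : Matroid E) (V : E → ℝ) (l : List E) (m : ThrMem E)
    (hm : M.Indep (m.acc : Set E)) :
    M.Indep ((m.acc ∪ helper51_tgo M V l m : Finset E) : Set E) := by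
  induction l generalizing m with
  | nil =>
    have h : m.acc ∪ helper51_tgo M V [] m = m.acc := by
      show m.acc ∪ ∅ = m.acc
      exact Finset.union_empty _
    rw [h]
    exact hm
  | cons x l ih =>
    by_cases hc : (if m.strict then m.thr < V x else m.thr ≤ V x) ∧
        M.Indep (insert x (m.acc : Set E))
    · rw [helper51_tgo_cons_pos M V x l m hc, helper51_union_insert]
      refine ih ⟨m.strict, m.thr, insert x m.acc⟩ ?_
      show M.Indep ((insert x m.acc : Finset E) : Set E)
      rw [Finset.coe_insert]
      exact hc.2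
    · rw [helper51_tgo_cons_neg M V x l m hc]
      exact ih m hm

theorem helper51_tgo_test (M : Matroid E) (V : E → ℝ) (l : List E) (m : ThrMem E) :
    ∀ x ∈ helper51_tgo M V l m, (if m.strict then m.thr < V x else m.thr ≤ V x) := by
  induction l generalizing m with
  | nil =>
    intro x hx
    exact absurd hx (Finset.notMem_empty x)
  | cons y l ih =>
    intro x hx
    by_cases hc : (if m.strict then m.thr < V y else m.thr ≤ V y) ∧
        M.Indep (insert y (m.acc : Set E))
    · rw [helper51_tgo_cons_pos M V y l m hc] at hx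
      rcases Finset.mem_insert.mp hx with hxy | hx'
      · rw [hxy]
        exact hc.1
      · exact ih ⟨m.strict, m.thr, insert y m.acc⟩ x hx'
    · rw [helper51_tgo_cons_neg M V y l m hc] at hx
      exact ih m x hx

theorem helper51_tgo_max (M : Matroid E) (V : E → ℝ) (l : List E) (m : ThrMem E) (e : E)
    (hel : e ∈ l) (ht : if m.strict then m.thr < V e else m.thr ≤ V e)
    (hi : M.Indep (insert e ((m.acc ∪ helper51_tgo M V l m : Finset E) : Set E))) :
    e ∈ m.acc ∪ helper51_tgo M V l m := by
  induction l generalizing m with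
  | nil => exact absurd hel List.not_mem_nil
  | cons y l ih =>
    by_cases hc : (if m.strict then m.thr < V y else m.thr ≤ V y) ∧
        M.Indep (insert y (m.acc : Set E))
    · rw [helper51_tgo_cons_pos M V y l m hc, helper51_union_insert] at hi ⊢
      rcases List.mem_cons.mp hel with hey | hel'
      · rw [hey]
        exact Finset.mem_union_left _ (Finset.mem_insert_self _ _)
      · exact ih ⟨m.strict, m.thr, insert y m.acc⟩ hel' ht hi
    · rw [helper51_tgo_cons_neg M V y l m hc] at hi ⊢
      rcases List.mem_cons.mp hel with hey | hel'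
      · exfalso
        apply hc
        rw [← hey]
        refine ⟨ht, hi.subset ?_⟩
        refine Set.insert_subset_insert ?_
        exact Finset.coe_subset.mpr Finset.subset_union_left
      · exact ih m hel' ht hi

theorem helper51_thrRule_indep (M : Matroid E) (J : ℕ) (S V : E → ℝ) (r : Fin (J + 10))
    (l : List E) :
    M.Indep ((thrRule M J).run S r V l : Set E) := by
  rw [helper51_run_eq]
  have h := helper51_tgo_indep M V l ⟨decide (r.val < 4), topS M S / 2 ^ thrExp r.val, ∅⟩
    (by
      show M.Indep ((∅ : Finset E) : Set E)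
      rw [Finset.coe_empty]
      exact M.empty_indep)
  have h2 : (∅ : Finset E) ∪ helper51_tgo M V l
      ⟨decide (r.val < 4), topS M S / 2 ^ thrExp r.val, ∅⟩
      = helper51_tgo M V l ⟨decide (r.val < 4), topS M S / 2 ^ thrExp r.val, ∅⟩ :=
    Finset.empty_union _
  rw [← h2]
  exact h

theorem helper51_thrRule_weak_ge (M : Matroid E) (J : ℕ) (S V : E → ℝ) (hV : ∀ e, 0 ≤ V e)
    (r : Fin (J + 10)) (hr : 4 ≤ r.val) (l : List E) (hl : ∀ e, e ∈ l)
    (I : Finset E) (hI : M.Indep (I : Set E)) :
    topS M S / 2 ^ thrExp r.val *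
        ((I.filter fun e => topS M S / 2 ^ thrExp r.val ≤ V e).card : ℝ)
      ≤ ∑ x ∈ (thrRule M J).run S r V l, V x := by
  rw [helper51_run_eq]
  have hstrict : decide (r.val < 4) = false := decide_eq_false (not_lt.mpr hr)
  rw [hstrict]
  have hT0 : 0 ≤ topS M S := by
    unfold topS
    exact NNReal.coe_nonneg _
  have hp0 : 0 ≤ topS M S / 2 ^ thrExp r.val :=
    div_nonneg hT0 (pow_nonneg (by norm_num) _)
  generalize topS M S / 2 ^ thrExp r.val = p at hp0 ⊢
  have hAind : M.Indep ((helper51_tgo M V l ⟨false, p, ∅⟩ : Finset E) : Set E) := by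
    have h := helper51_tgo_indep M V l ⟨false, p, ∅⟩
      (by
        show M.Indep ((∅ : Finset E) : Set E)
        rw [Finset.coe_empty]
        exact M.empty_indep)
    have h2 : (∅ : Finset E) ∪ helper51_tgo M V l ⟨false, p, ∅⟩
        = helper51_tgo M V l ⟨false, p, ∅⟩ := Finset.empty_union _
    rw [← h2]
    exact h
  have hI'ind : M.Indep ((I.filter fun e => p ≤ V e : Finset E) : Set E) :=
    hI.subset (Finset.coe_subset.mpr (Finset.filter_subset _ _))
  have hcard : (I.filter fun e => p ≤ V e).card ≤ (helper51_tgo M V l ⟨false, p, ∅⟩).card := by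
    by_contra hlt
    obtain ⟨e, heI, heA, hins⟩ := hAind.augment_finset hI'ind (not_le.mp hlt)
    have hte : p ≤ V e := (Finset.mem_filter.mp heI).2
    have hmem := helper51_tgo_max M V l ⟨false, p, ∅⟩ e (hl e)
      (by
        show (if false = true then p < V e else p ≤ V e)
        rw [if_neg (by simp)]
        exact hte)
      (by
        show M.Indep (insert e (((∅ : Finset E) ∪ helper51_tgo M V l ⟨false, p, ∅⟩ :
          Finset E) : Set E))
        rw [Finset.empty_union]
        exact hins)
    have hmem' : e ∈ (∅ : Finset E) ∪ helper51_tgo M V l ⟨false, p, ∅⟩ := hmem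
    rw [Finset.empty_union] at hmem'
    exact heA hmem'
  calc p * ((I.filter fun e => p ≤ V e).card : ℝ)
      ≤ p * ((helper51_tgo M V l ⟨false, p, ∅⟩).card : ℝ) :=
        mul_le_mul_of_nonneg_left (Nat.cast_le.mpr hcard) hp0
    _ = ∑ _x ∈ helper51_tgo M V l ⟨false, p, ∅⟩, p := by
        rw [Finset.sum_const, nsmul_eq_mul, mul_comm]
    _ ≤ ∑ x ∈ helper51_tgo M V l ⟨false, p, ∅⟩, V x := by
        refine Finset.sum_le_sum fun x hx => ?_
        have h := helper51_tgo_test M V l ⟨false, p, ∅⟩ x hx
        have h' : (if false = true then p < V x else p ≤ V x) := h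
        rw [if_neg (by simp)] at h'
        exact h'

theorem helper51_tgo_strict_mem (M : Matroid E) (V : E → ℝ) (T : ℝ) (l : List E) (e : E)
    (he : e ∈ NL M) (hel : e ∈ l) (h1 : T < V e)
    (h2 : ∀ e' ∈ NL M, e' ≠ e → V e' ≤ T) :
    e ∈ helper51_tgo M V l ⟨true, T, ∅⟩ := by
  have heI : M.Indep {e} := (Finset.mem_filter.mp he).2
  induction l with
  | nil => exact absurd hel List.not_mem_nil
  | cons y l ih =>
    by_cases hye : y = e
    · have hc : (if (⟨true, T, ∅⟩ : ThrMem E).strict then (⟨true, T, ∅⟩ : ThrMem E).thr < V y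
          else (⟨true, T, ∅⟩ : ThrMem E).thr ≤ V y) ∧
          M.Indep (insert y (((⟨true, T, ∅⟩ : ThrMem E).acc : Finset E) : Set E)) := by
        refine ⟨?_, ?_⟩
        · show (if true = true then T < V y else T ≤ V y)
          rw [if_pos rfl, hye]
          exact h1
        · show M.Indep (insert y (((∅ : Finset E)) : Set E))
          rw [Finset.coe_empty, hye]
          simpa using heI
      rw [helper51_tgo_cons_pos M V y l _ hc, hye]
      exact Finset.mem_insert_self _ _
    · have hc : ¬ ((if (⟨true, T, ∅⟩ : ThrMem E).strict then (⟨true, T, ∅⟩ : ThrMem E).thr < V y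
          else (⟨true, T, ∅⟩ : ThrMem E).thr ≤ V y) ∧
          M.Indep (insert y (((⟨true, T, ∅⟩ : ThrMem E).acc : Finset E) : Set E))) := by
        rintro ⟨hc1, hc2⟩
        have hc1' : (if true = true then T < V y else T ≤ V y) := hc1
        rw [if_pos rfl] at hc1'
        have hc2' : M.Indep (insert y (((∅ : Finset E)) : Set E)) := hc2
        rw [Finset.coe_empty] at hc2'
        have hyI : M.Indep {y} := by simpa using hc2'
        have hyNL : y ∈ NL M := Finset.mem_filter.mpr ⟨Finset.mem_univ y, hyI⟩
        exact absurd hc1' (not_lt.mpr (h2 y hyNL hye))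
      rw [helper51_tgo_cons_neg M V y l _ hc]
      rcases List.mem_cons.mp hel with hey | hel'
      · exact absurd hey.symm hye
      · exact ih hel'

theorem helper51_thrRule_strict_ge (M : Matroid E) (J : ℕ) (S V : E → ℝ) (hV : ∀ e, 0 ≤ V e)
    (r : Fin (J + 10)) (hr : r.val < 4) (l : List E) (e : E) (he : e ∈ NL M) (hel : e ∈ l)
    (h1 : topS M S < V e) (h2 : ∀ e' ∈ NL M, e' ≠ e → V e' ≤ topS M S) :
    V e ≤ ∑ x ∈ (thrRule M J).run S r V l, V x := by
  rw [helper51_run_eq]
  have hstrict : decide (r.val < 4) = true := decide_eq_true hr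
  have hexp : thrExp r.val = 0 := by
    unfold thrExp
    omega
  rw [hstrict, hexp, pow_zero, div_one]
  have hmem := helper51_tgo_strict_mem M V (topS M S) l e he hel h1 h2
  exact Finset.single_le_sum (f := V) (fun x _ => hV x) hmem

end

end Vale.Agent.Lib.P331
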